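import Vale.Agent.P287.Nod.SpecF
import Vale.Agent.P287.H684.Dim

/-!
The block [F1]: the parity gives no new section or two new sections of degree `r - 1`.
-/

namespace Vale.Agent.P287.H684.Nod

open Polynomial Matrix Module Vale.Agent.P287 Vale.Agent.P287.Theta Vale.Agent.P287.Odd
open Vale.Agent.P287.EvenN Vale.Agent.P287.Nod

lemma wt0_le : ∀ i : Fin 4, wt0 i ≤ 1 := by decide

lemma degE_eq' : ∀ i j : Fin 4, degE i j = 1 + wt0 i + wt0 j := by decide

lemma hom_entry {M : Matrix (Fin 4) (Fin 4) R3} (hM : FibShape M) (i j : Fin 4) :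
    (M i j).IsHomogeneous (1 + wt0 i + wt0 j) := by
  rw [← degE_eq']
  exact hM.entry i j

section pi

variable {k V ι : Type*} [Field k] [AddCommGroup V] [Module k V] [Fintype ι]

/-- the families with values in `p i` -/
def piE (p : ι → Submodule k V) :
    (Submodule.pi Set.univ p : Submodule k (ι → V)) ≃ₗ[k] (∀ i, p i) where
  toFun w i := ⟨w.1 i, w.2 i (Set.mem_univ i)⟩
  map_add' _ _ := rfl
  map_smul' _ _ := rfl
  invFun u := ⟨fun i => u i, fun i _ => (u i).2⟩
  left_inv _ := rfl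
  right_inv _ := rfl

lemma finrank_pi_sub (p : ι → Submodule k V) [∀ i, Module.Finite k (p i)] :
    finrank k (Submodule.pi Set.univ p : Submodule k (ι → V)) = ∑ i, finrank k (p i) := by
  rw [(piE p).finrank_eq, Module.finrank_pi_fintype]

end pi

/-- the pieces of the source of `M` in degree `k` -/
noncomputable def sp (k : ℕ) (i : Fin 4) : Submodule ℂ R3 :=
  if 1 + wt0 i ≤ k then MvPolynomial.homogeneousSubmodule (Fin 3) ℂ (k - 1 - wt0 i) else ⊥

instance finite_hom (d : ℕ) : Module.Finite ℂ (MvPolynomial.homogeneousSubmodule (Fin 3) ℂ d) := by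
  refine Module.finite_of_finrank_pos ?_
  rw [finrank_homog]
  exact Nat.choose_pos (by omega)

lemma sp_pos {k : ℕ} {i : Fin 4} (h : 1 + wt0 i ≤ k) :
    sp k i = MvPolynomial.homogeneousSubmodule (Fin 3) ℂ (k - 1 - wt0 i) := if_pos h

lemma sp_neg {k : ℕ} {i : Fin 4} (h : ¬ 1 + wt0 i ≤ k) : sp k i = ⊥ := if_neg h

instance finite_sp (k : ℕ) (i : Fin 4) : Module.Finite ℂ (sp k i) := by
  by_cases h : 1 + wt0 i ≤ k
  · rw [sp_pos h]
    exact finite_hom _
  · rw [sp_neg h]
    infer_instance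

lemma finrank_sp (k : ℕ) (i : Fin 4) : finrank ℂ (sp k i) = (k + 1 - wt0 i).choose 2 := by
  by_cases h : 1 + wt0 i ≤ k
  · rw [sp_pos h, finrank_homog]
    congr 1
    omega
  · rw [sp_neg h, finrank_bot]
    symm
    apply Nat.choose_eq_zero_of_lt
    omega

/-- the source of `M` in degree `k` -/
noncomputable def srcG (k : ℕ) : Submodule ℂ (Fin 4 → R3) := Submodule.pi Set.univ (sp k)

lemma finrank_srcG (k : ℕ) : finrank ℂ (srcG k) = 3 * (k + 1).choose 2 + k.choose 2 := by
  rw [srcG, finrank_pi_sub]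
  simp only [finrank_sp, Fin.sum_univ_four]
  have h0 : wt0 0 = 1 := rfl
  have h1 : wt0 1 = 0 := rfl
  have h2 : wt0 2 = 0 := rfl
  have h3 : wt0 3 = 0 := rfl
  rw [h0, h1, h2, h3, show k + 1 - 1 = k by omega, show k + 1 - 0 = k + 1 by omega]
  ring

lemma mem_srcG {k : ℕ} {u : Fin 4 → R3} : u ∈ srcG k ↔ ∀ i, u i ∈ sp k i := by
  rw [srcG, Submodule.mem_pi]
  exact ⟨fun h i => h i trivial, fun h i _ => h i⟩

/-- multiplication by `M` -/
noncomputable def imM (M : Matrix (Fin 4) (Fin 4) R3) : (Fin 4 → R3) →ₗ[ℂ] (Fin 4 → R3) :=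
  M.mulVecLin.restrictScalars ℂ

lemma imM_apply (M : Matrix (Fin 4) (Fin 4) R3) (u : Fin 4 → R3) : imM M u = M *ᵥ u := rfl

lemma imM_inj {M : Matrix (Fin 4) (Fin 4) R3} (h0 : M.det ≠ 0) : Function.Injective (imM M) := by
  rw [← LinearMap.ker_eq_bot, LinearMap.ker_eq_bot']
  intro u hu
  rw [imM_apply] at hu
  have h1 : M.det • u = 0 := by
    have h2 : M.adjugate *ᵥ (M *ᵥ u) = M.det • u := by
      rw [mulVec_mulVec, adjugate_mul, smul_mulVec, one_mulVec]
    rw [← h2, hu, mulVec_zero]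
  funext i
  have h3 := congrFun h1 i
  rw [Pi.smul_apply, smul_eq_mul, Pi.zero_apply, mul_eq_zero] at h3
  exact h3.resolve_left h0

section spaces

variable {M : Matrix (Fin 4) (Fin 4) R3} {g : R3} {w : Fin 2 → Fin 4 → R3} {k : ℕ}

lemma mulVec_pair (hM : M.IsSymm) (u m : Fin 4 → R3) :
    (M *ᵥ u) ⬝ᵥ (M.adjugate *ᵥ m) = M.det * (u ⬝ᵥ m) := by
  have h1 : (M *ᵥ u) ⬝ᵥ (M.adjugate *ᵥ m) = u ⬝ᵥ (M *ᵥ (M.adjugate *ᵥ m)) := by
    rw [dotProduct_mulVec u M, ← mulVec_transpose, hM.eq]
  rw [h1, mulVec_mulVec, mul_adjugate, smul_mulVec, one_mulVec, dotProduct_smul, smul_eq_mul]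

lemma map_le (hM : FibShape M) : (srcG k).map (imM M) ≤ Xh M g w k := by
  rintro _ ⟨u, hu, rfl⟩
  have hu' := mem_srcG.1 hu
  refine ⟨fun i => ?_, fun e m _ _ => ?_⟩
  · rw [imM_apply, mulVec, dotProduct]
    refine MvPolynomial.IsHomogeneous.sum _ _ _ fun j _ => ?_
    have hj := hu' j
    unfold sp at hj
    split_ifs at hj with h
    · have h1 := (hom_entry hM i j).mul hj
      rwa [show 1 + wt0 i + wt0 j + (k - 1 - wt0 j) = k + wt0 i by omega] at h1
    · rw [(Submodule.mem_bot ℂ).1 hj, mul_zero]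
      exact MvPolynomial.isHomogeneous_zero _ _ _
  · rw [imM_apply, mulVec_pair hM.symm]
    exact Ideal.mul_mem_right _ _ (Ideal.subset_span (Or.inl rfl))

attribute [local instance] MvPolynomial.gradedAlgebra in
/-- A homogeneous vector in the image of `M` is the image of a homogeneous vector. -/
lemma mem_map (hM : FibShape M) {v u : Fin 4 → R3} (hv : ∀ i, (v i).IsHomogeneous (k + wt0 i))
    (h : v = M *ᵥ u) : v ∈ (srcG k).map (imM M) := by
  let A := MvPolynomial.homogeneousSubmodule (Fin 3) ℂ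
  let u' : Fin 4 → R3 := fun j =>
    if 1 + wt0 j ≤ k then (DirectSum.decompose A (u j) (k - 1 - wt0 j) : R3) else 0
  refine ⟨u', mem_srcG.2 fun j => ?_, ?_⟩
  · unfold sp
    by_cases h1 : 1 + wt0 j ≤ k
    · rw [if_pos h1]
      simp only [u', if_pos h1]
      exact (DirectSum.decompose A (u j) (k - 1 - wt0 j)).2
    · rw [if_neg h1]
      simp only [u', if_neg h1]
      exact Submodule.zero_mem _
  · rw [imM_apply]
    funext i
    have h1 : v i = (DirectSum.decompose A (v i) (k + wt0 i) : R3) :=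
      (DirectSum.decompose_of_mem_same A (hv i)).symm
    rw [h1]
    conv_rhs => rw [h]
    rw [mulVec, mulVec, dotProduct, dotProduct, DirectSum.decompose_sum, DirectSum.sum_apply,
      AddSubmonoidClass.coe_finsetSum]
    refine Finset.sum_congr rfl fun j _ => ?_
    by_cases h2 : 1 + wt0 j ≤ k
    · simp only [u', if_pos h2]
      have h3 := DirectSum.coe_decompose_mul_add_of_left_mem (𝒜 := A) (i := 1 + wt0 i + wt0 j)
        (j := k - 1 - wt0 j) (a := M i j) (b := u j) (hom_entry hM i j)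
      rw [show 1 + wt0 i + wt0 j + (k - 1 - wt0 j) = k + wt0 i by omega] at h3
      exact h3.symm
    · simp only [u', if_neg h2, mul_zero]
      exact (DirectSum.coe_decompose_mul_of_left_mem_of_not_le (𝒜 := A) (i := 1 + wt0 i + wt0 j)
        (n := k + wt0 i) (a := M i j) (b := u j) (hom_entry hM i j) (by omega)).symm

lemma finite_Xh' (d : ℕ) : Module.Finite ℂ (Xh M g w d) := by
  have h : Xh M g w d ≤ Submodule.pi Set.univ fun i : Fin 4 =>
      MvPolynomial.homogeneousSubmodule (Fin 3) ℂ (d + wt0 i) := fun v hv i _ => hv.1 i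
  have : Module.Finite ℂ (Submodule.pi Set.univ fun i : Fin 4 =>
      MvPolynomial.homogeneousSubmodule (Fin 3) ℂ (d + wt0 i)) :=
    Module.Finite.equiv (piE _).symm
  exact Submodule.finiteDimensional_of_le h

end spaces

/-- Two vectors independent modulo a subspace of codimension at least two. -/
lemma exists_two {V : Type*} [AddCommGroup V] [Module ℂ V] {X Y : Submodule ℂ V}
    [Module.Finite ℂ X] (hYX : Y ≤ X) (h : finrank ℂ Y + 2 ≤ finrank ℂ X) :
    ∃ v : Fin 2 → V, (∀ i, v i ∈ X) ∧ ∀ c : Fin 2 → ℂ, c ≠ 0 → c 0 • v 0 + c 1 • v 1 ∉ Y := by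
  have : Module.Finite ℂ Y := Submodule.finiteDimensional_of_le hYX
  have h1 : ∃ a ∈ X, a ∉ Y := by
    by_contra hcon
    push Not at hcon
    have := Submodule.finrank_mono (show X ≤ Y from hcon)
    omega
  obtain ⟨a, ha, haY⟩ := h1
  have h2 : ∃ b ∈ X, b ∉ Y ⊔ Submodule.span ℂ {a} := by
    by_contra hcon
    push Not at hcon
    have h3 := Submodule.finrank_mono (show X ≤ Y ⊔ Submodule.span ℂ {a} from hcon)
    have h4 := Submodule.finrank_add_le_finrank_add_finrank Y (Submodule.span ℂ {a})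
    have h5 := finrank_span_singleton (K := ℂ) (v := a) (by
      rintro rfl
      exact haY Y.zero_mem)
    omega
  obtain ⟨b, hb, hbY⟩ := h2
  refine ⟨![a, b], fun i => ?_, fun c hc h3 => ?_⟩
  · fin_cases i
    · exact ha
    · exact hb
  · have h3' : c 0 • a + c 1 • b ∈ Y := h3
    by_cases h4 : c 1 = 0
    · have h5 : c 0 ≠ 0 := by
        intro h5
        apply hc
        funext i
        fin_cases i
        · exact h5
        · exact h4
      rw [h4, zero_smul, add_zero] at h3'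
      apply haY
      have := Y.smul_mem (c 0)⁻¹ h3'
      rwa [smul_smul, inv_mul_cancel₀ h5, one_smul] at this
    · apply hbY
      have h5 : b = (c 1)⁻¹ • (c 0 • a + c 1 • b) + (-((c 1)⁻¹ * c 0)) • a := by
        rw [smul_add, smul_smul, smul_smul, inv_mul_cancel₀ h4, one_smul, neg_smul]
        abel
      rw [h5]
      exact Submodule.add_mem_sup (Y.smul_mem _ h3')
        (Submodule.smul_mem _ _ (Submodule.mem_span_singleton_self a))

/-- [F1] -/
theorem stmtF1 : StmtF1 := by
  intro M g r w hS h0 hpar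
  have := finite_Xh' (M := M) (g := g) (w := w) (r - 1)
  have hr := hS.pos
  have hle := map_le (M := M) (g := g) (w := w) (k := r - 1) hS.fib
  have hfin : finrank ℂ ((srcG (r - 1)).map (imM M)) = 3 * r.choose 2 + (r - 1).choose 2 := by
    rw [← (Submodule.equivMapOfInjective (imM M) (imM_inj h0) (srcG (r - 1))).finrank_eq,
      finrank_srcG, show r - 1 + 1 = r by omega]
  have hmono := Submodule.finrank_mono hle
  by_cases heq : finrank ℂ ((srcG (r - 1)).map (imM M)) = finrank ℂ (Xh M g w (r - 1))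
  · left
    intro v hv
    have h1 := Submodule.eq_of_le_of_finrank_eq hle heq
    rw [← h1] at hv
    obtain ⟨u, _, rfl⟩ := hv
    exact ⟨u, rfl⟩
  · right
    have h2 : finrank ℂ ((srcG (r - 1)).map (imM M)) + 2 ≤ finrank ℂ (Xh M g w (r - 1)) := by
      obtain ⟨t, ht⟩ := hpar
      omega
    obtain ⟨v, hv, hc⟩ := exists_two hle h2
    refine ⟨v, hv, fun c hc0 u hu => hc c hc0 ?_⟩
    refine mem_map hS.fib (fun i => ?_) hu
    have h3 : c 0 • v 0 + c 1 • v 1 ∈ Xh M g w (r - 1) :=
      Submodule.add_mem _ (Submodule.smul_mem _ _ (hv 0)) (Submodule.smul_mem _ _ (hv 1))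
    exact h3.1 i

end Vale.Agent.P287.H684.Nod
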